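import Vale.Agent.P286.H64.LM
import Vale.Agent.P286.H353.DGFull

/-!
# The DG category of graded differential modules over an exterior algebra
-/

namespace Vale.Agent.P286.H274

open CategoryTheory
open Vale.Agent.P286.H847 (GD)
open Vale.Agent.P286.H64 Vale.Agent.P286.H353

noncomputable section

universe u v u₁ v₁

variable {n : ℕ}

theorem nop_sq (p : ℤ) : (p.negOnePow : ℤ) * (p.negOnePow : ℤ) = 1 := by
  rw [← Units.val_mul, Int.units_mul_self, Units.val_one]

theorem nop_succ (p : ℤ) : ((p + 1).negOnePow : ℤ) = - (p.negOnePow : ℤ) := by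
  rw [Int.negOnePow_succ, Units.val_neg]

theorem nop_add (p q : ℤ) :
    ((p + q).negOnePow : ℤ) = (p.negOnePow : ℤ) * (q.negOnePow : ℤ) := by
  rw [Int.negOnePow_add, Units.val_mul]

/-! ### Cochains -/

/-- The maps of degree `p` which commute, with the sign, with the exterior algebra, are the
elements of a subspace. -/
def coS (N N' : LM n) (p : ℤ) : Submodule ℂ (N.V →ₗ[ℂ] N'.V) where
  carrier := {u | (∀ (m : ℤ) (x : N.V), x ∈ N.gr m → u x ∈ N'.gr (m + p)) ∧
    ∀ (i : Fin n) (x : N.V), u (N.e i x) = (p.negOnePow : ℤ) • N'.e i (u x)}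
  add_mem' := by
    rintro u w ⟨h1, h2⟩ ⟨h3, h4⟩
    refine ⟨fun m x hx => add_mem (h1 m x hx) (h3 m x hx), fun i x => ?_⟩
    rw [LinearMap.add_apply, LinearMap.add_apply, h2, h4, map_add, smul_add]
  zero_mem' := by
    refine ⟨fun m x hx => zero_mem _, fun i x => ?_⟩
    rw [LinearMap.zero_apply, LinearMap.zero_apply, map_zero, smul_zero]
  smul_mem' := by
    rintro c u ⟨h1, h2⟩
    refine ⟨fun m x hx => Submodule.smul_mem _ c (h1 m x hx), fun i x => ?_⟩
    rw [LinearMap.smul_apply, LinearMap.smul_apply, h2, map_smul, smul_comm]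

/-- Comparison with the structure. -/
def coE (N N' : LM n) (p : ℤ) : LM.Coch N N' p ≃ coS N N' p where
  toFun u := ⟨u.f, u.deg, u.e⟩
  invFun u := ⟨u.1, u.2.1, u.2.2⟩
  left_inv _ := rfl
  right_inv _ := rfl

instance (N N' : LM n) (p : ℤ) : AddCommGroup (LM.Coch N N' p) := (coE N N' p).addCommGroup

instance (N N' : LM n) (p : ℤ) : Module ℂ (LM.Coch N N' p) := (coE N N' p).module ℂ

namespace Co

variable {N N' N'' : LM n} {p q r : ℤ}

@[simp] theorem zero_f : (0 : LM.Coch N N' p).f = 0 := rfl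
@[simp] theorem add_f (z w : LM.Coch N N' p) : (z + w).f = z.f + w.f := rfl
@[simp] theorem sub_f (z w : LM.Coch N N' p) : (z - w).f = z.f - w.f := rfl
@[simp] theorem neg_f (z : LM.Coch N N' p) : (-z).f = - z.f := rfl
@[simp] theorem smul_f (c : ℂ) (z : LM.Coch N N' p) : (c • z).f = c • z.f := rfl

theorem deg' (u : LM.Coch N N' p) {m k : ℤ} (h : k = m + p) {x : N.V} (hx : x ∈ N.gr m) :
    u.f x ∈ N'.gr k := h ▸ u.deg m x hx

theorem ext' {u w : LM.Coch N N' p} (h : ∀ x, u.f x = w.f x) : u = w :=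
  LM.Coch.ext (LinearMap.ext h)

/-- A linear family of cochains, from the linear maps. -/
def mkL {E : Type*} [AddCommGroup E] [Module ℂ E] (μ : E →ₗ[ℂ] (N.V →ₗ[ℂ] N'.V))
    (deg : ∀ (a : E) (m : ℤ) (x : N.V), x ∈ N.gr m → μ a x ∈ N'.gr (m + p))
    (e : ∀ (a : E) (i : Fin n) (x : N.V),
      μ a (N.e i x) = (p.negOnePow : ℤ) • N'.e i (μ a x)) : E →ₗ[ℂ] LM.Coch N N' p where
  toFun a := ⟨μ a, deg a, e a⟩
  map_add' a b := LM.Coch.ext (map_add μ a b)
  map_smul' c a := LM.Coch.ext (map_smul μ c a)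

theorem mkL_f {E : Type*} [AddCommGroup E] [Module ℂ E] (μ : E →ₗ[ℂ] (N.V →ₗ[ℂ] N'.V))
    (deg : ∀ (a : E) (m : ℤ) (x : N.V), x ∈ N.gr m → μ a x ∈ N'.gr (m + p))
    (e : ∀ (a : E) (i : Fin n) (x : N.V),
      μ a (N.e i x) = (p.negOnePow : ℤ) • N'.e i (μ a x)) (a : E) : (mkL μ deg e a).f = μ a := rfl

/-- The identity. -/
def one (N : LM n) : LM.Coch N N 0 :=
  ⟨LinearMap.id, fun m x hx => by simpa using hx, fun i x => by simp⟩

/-- The composition (first `u`, then `w`). -/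
def cmp (h : p + q = r) (u : LM.Coch N N' p) (w : LM.Coch N' N'' q) : LM.Coch N N'' r :=
  ⟨w.f.comp u.f, fun m x hx => deg' w (by omega) (u.deg m x hx), fun i x => by
    rw [LinearMap.comp_apply, LinearMap.comp_apply, u.e, map_zsmul, w.e, smul_smul, ← h,
      nop_add]⟩

/-- The differential. -/
def dl (h : p + 1 = q) (u : LM.Coch N N' p) : LM.Coch N N' q :=
  ⟨N'.d.comp u.f - (p.negOnePow : ℤ) • u.f.comp N.d, fun m x hx => by
    have h1 := N'.dgr' (n := m + q) (by omega) (u.deg m x hx)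
    have h2 := deg' u (k := m + q) (by omega) (N.dgr m x hx)
    exact sub_mem h1 (zsmul_mem h2 _), fun i x => by
    simp only [LinearMap.sub_apply, LinearMap.comp_apply, LinearMap.smul_apply, map_sub,
      map_zsmul, N.d_e, map_neg, u.e, N'.d_e, ← h, nop_succ]
    simp only [smul_sub, smul_neg, neg_smul]⟩

theorem one_f (x : N.V) : (one N).f x = x := rfl

theorem cmp_f (h : p + q = r) (u : LM.Coch N N' p) (w : LM.Coch N' N'' q) (x : N.V) :
    (cmp h u w).f x = w.f (u.f x) := rfl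

theorem dl_f (h : p + 1 = q) (u : LM.Coch N N' p) (x : N.V) :
    (dl h u).f x = N'.d (u.f x) - (p.negOnePow : ℤ) • u.f (N.d x) := rfl

/-- The differential, in all cases. -/
def dif (p q : ℤ) (u : LM.Coch N N' p) : LM.Coch N N' q :=
  if h : p + 1 = q then dl h u else 0

theorem dif_eq (h : p + 1 = q) (u : LM.Coch N N' p) : dif p q u = dl h u := dif_pos h

theorem dif_ne (h : ¬ p + 1 = q) (u : LM.Coch N N' p) : dif p q u = 0 := dif_neg h

theorem dif_f (h : p + 1 = q) (u : LM.Coch N N' p) (x : N.V) :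
    (dif p q u).f x = N'.d (u.f x) - (p.negOnePow : ℤ) • u.f (N.d x) := by
  rw [dif_eq h]
  rfl

theorem eq_dif (u : LM.Coch N N' p) (w : LM.Coch N N' q)
    (h1 : p + 1 = q → ∀ x : N.V, w.f x = N'.d (u.f x) - (p.negOnePow : ℤ) • u.f (N.d x))
    (h0 : ¬ p + 1 = q → w = 0) : w = dif p q u := by
  by_cases h : p + 1 = q
  · rw [dif_eq h]
    exact ext' (h1 h)
  · rw [dif_ne h]
    exact h0 h

theorem dif_zero_iff (u : LM.Coch N N' 0) :
    dif 0 1 u = 0 ↔ ∀ x, u.f (N.d x) = N'.d (u.f x) := by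
  constructor
  · intro h x
    have h1 := congrArg (fun w : LM.Coch N N' 1 => w.f x) h
    simp only [dif_f (zero_add 1), Int.negOnePow_zero, Units.val_one, one_smul, zero_f,
      LinearMap.zero_apply] at h1
    exact (sub_eq_zero.1 h1).symm
  · intro h
    apply ext'
    intro x
    rw [dif_f (zero_add 1), h]
    simp

end Co

/-- The DG category of graded differential modules over the exterior algebra with `n`
generators. -/
def LMod (n : ℕ) : DGC.{1, 0} where
  Obj := LM n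
  Hom N N' p := LM.Coch N N' p
  one := Co.one
  comp h u w := Co.cmp h u w
  d p q u := Co.dif p q u
  one_comp _ := rfl
  comp_one _ := rfl
  assoc _ _ _ := rfl
  d_one N := (Co.dif_zero_iff _).2 fun _ => rfl
  d_comp f g hf hg := (Co.dif_zero_iff _).2 fun x => by
    rw [Co.dif_zero_iff] at hf hg
    rw [Co.cmp_f, Co.cmp_f, hf, hg]

namespace LMod

/-- The object of the category of closed morphisms. -/
def lo (N : LM n) : Z0 (LMod n) := N

/-- The module. -/
def ol (N : Z0 (LMod n)) : LM n := N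

/-- The cochain of degree `0` underlying a morphism. -/
def lf {N N' : Z0 (LMod n)} (a : N ⟶ N') : LM.Coch (ol N) (ol N') 0 := zf a

theorem lf_d {N N' : Z0 (LMod n)} (a : N ⟶ N') (x : (ol N).V) :
    (lf a).f ((ol N).d x) = (ol N').d ((lf a).f x) :=
  (Co.dif_zero_iff (lf a)).1 (zf_cl a) x

/-- The strict morphism underlying a closed morphism of degree `0`. -/
def toH {N N' : Z0 (LMod n)} (a : N ⟶ N') : LM.Hom (ol N) (ol N') where
  f := (lf a).f
  comm := lf_d a
  deg m x hx := Co.deg' (lf a) (by omega) hx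
  e i x := by rw [(lf a).e]; simp

/-- The cochain of degree `0` defined by a strict morphism. -/
def hm {N N' : LM n} (u : LM.Hom N N') : LM.Coch N N' 0 :=
  ⟨u.f, fun m x hx => by simpa using u.deg m x hx, fun i x => by rw [u.e]; simp⟩

theorem hm_f {N N' : LM n} (u : LM.Hom N N') : (hm u).f = u.f := rfl

theorem hm_cl {N N' : LM n} (u : LM.Hom N N') : Co.dif 0 1 (hm u) = 0 :=
  (Co.dif_zero_iff _).2 u.comm

/-- The closed morphism of degree `0` defined by a strict morphism. -/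
def ofH {N N' : LM n} (u : LM.Hom N N') : lo N ⟶ lo N' :=
  zmk (C := LMod n) (X := lo N) (Y := lo N') (hm u) (hm_cl u)

theorem lf_ofH {N N' : LM n} (u : LM.Hom N N') : lf (ofH u) = hm u := rfl

theorem toH_f {N N' : Z0 (LMod n)} (a : N ⟶ N') : (toH a).f = (lf a).f := rfl

theorem toH_ofH {N N' : LM n} (u : LM.Hom N N') : toH (ofH u) = u := rfl

theorem ofH_toH {N N' : Z0 (LMod n)} (a : N ⟶ N') : ofH (toH a) = a := rfl

theorem hom_ext {N N' : Z0 (LMod n)} {a b : N ⟶ N'} (h : ∀ x, (toH a).f x = (toH b).f x) :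
    a = b := z_ext (Co.ext' h)

theorem toH_id (N : Z0 (LMod n)) : toH (𝟙 N) = LM.Hom.id (ol N) := rfl

theorem toH_comp {N N' N'' : Z0 (LMod n)} (a : N ⟶ N') (b : N' ⟶ N'') :
    toH (a ≫ b) = (toH b).comp (toH a) := rfl

theorem ofH_comp {N N' N'' : LM n} (u : LM.Hom N N') (w : LM.Hom N' N'') :
    ofH (w.comp u) = ofH u ≫ ofH w := rfl

/-- The quasi-isomorphisms. -/
def W (n : ℕ) : MorphismProperty (Z0 (LMod n)) := fun _ _ a => GD.Qis (toH a).toHom

theorem W_iff {N N' : Z0 (LMod n)} (a : N ⟶ N') : W n a ↔ GD.Qis (toH a).toHom := Iff.rfl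

theorem W_ofH {N N' : LM n} (u : LM.Hom N N') : W n (ofH u) ↔ GD.Qis u.toHom := Iff.rfl

theorem W_id (N : Z0 (LMod n)) : W n (𝟙 N) := GD.Qis.id _

theorem W_comp {N N' N'' : Z0 (LMod n)} {a : N ⟶ N'} {b : N' ⟶ N''} (ha : W n a) (hb : W n b) :
    W n (a ≫ b) := GD.Qis.comp hb ha

theorem W_of_left {N N' N'' : Z0 (LMod n)} {a : N ⟶ N'} {b : N' ⟶ N''} (hb : W n b)
    (h : W n (a ≫ b)) : W n a := GD.Qis.of_comp_left hb h

theorem W_of_right {N N' N'' : Z0 (LMod n)} {a : N ⟶ N'} {b : N' ⟶ N''} (ha : W n a)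
    (h : W n (a ≫ b)) : W n b := GD.Qis.of_comp_right ha h

/-! ### DG functors with values in `LMod n` -/

/-- A DG functor with values in `LMod n`, from the linear maps. -/
def dgf {C : DGC.{u, v}} (obj : C.Obj → LM n)
    (μ : ∀ {X Y : C.Obj} (p : ℤ), C.Hom X Y p →ₗ[ℂ] ((obj X).V →ₗ[ℂ] (obj Y).V))
    (deg : ∀ {X Y : C.Obj} (p : ℤ) (a : C.Hom X Y p) (m : ℤ) (x : (obj X).V),
      x ∈ (obj X).gr m → μ p a x ∈ (obj Y).gr (m + p))
    (e : ∀ {X Y : C.Obj} (p : ℤ) (a : C.Hom X Y p) (i : Fin n) (x : (obj X).V),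
      μ p a ((obj X).e i x) = (p.negOnePow : ℤ) • (obj Y).e i (μ p a x))
    (one : ∀ (X : C.Obj) (x : (obj X).V), μ 0 (C.one X) x = x)
    (comp : ∀ {X Y Z : C.Obj} {p q r : ℤ} (h : p + q = r) (a : C.Hom X Y p) (b : C.Hom Y Z q)
      (x : (obj X).V), μ r (C.comp h a b) x = μ q b (μ p a x))
    (d_eq : ∀ {X Y : C.Obj} (p : ℤ) (a : C.Hom X Y p) (x : (obj X).V),
      μ (p + 1) (C.d p (p + 1) a) x =
        (obj Y).d (μ p a x) - (p.negOnePow : ℤ) • μ p a ((obj X).d x))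
    (d_ne : ∀ {X Y : C.Obj} (p q : ℤ) (a : C.Hom X Y p), ¬ p + 1 = q → C.d p q a = 0) :
    DGF C (LMod n) where
  obj := obj
  map {X Y} p := Co.mkL (N := obj X) (N' := obj Y) (μ p) (deg p) (e p)
  map_one X := Co.ext' (one X)
  map_comp h a b := Co.ext' (comp h a b)
  map_d {X Y} p q a := Co.eq_dif (N := obj X) (N' := obj Y) _ _
    (fun h x => by subst h; exact d_eq p a x)
    (fun h => by
      rw [d_ne p q a h]
      exact LinearMap.map_zero (Co.mkL (N := obj X) (N' := obj Y) (μ q) (deg q) (e q)))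

theorem lf_dgf {C : DGC.{u, v}} (Φ : DGF C (LMod n)) {X Y : Z0 C} (a : X ⟶ Y) :
    lf (Φ.z0.map a) = Φ.map 0 (zf a) := rfl

/-- Quasi-isomorphisms which are natural on closed morphisms of degree `0`. -/
theorem natW {C : DGC.{u, v}} {Φ Ψ : DGF C (LMod n)}
    (η : ∀ X : C.Obj, LM.Hom (Φ.obj X) (Ψ.obj X))
    (nat : ∀ {X Y : C.Obj} (a : C.Hom X Y 0), C.d 0 1 a = 0 → ∀ x : LM.toGD (Φ.obj X) |>.V,
      (η Y).f ((Φ.map 0 a : LM.Coch (Φ.obj X) (Φ.obj Y) 0).f x) =
        (Ψ.map 0 a : LM.Coch (Ψ.obj X) (Ψ.obj Y) 0).f ((η X).f x))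
    (hq : ∀ X, GD.Qis (η X).toHom) : NatW (W n) Φ.z0 Ψ.z0 :=
  ⟨natT (Φ := Φ) (Ψ := Ψ) (fun X => hm (η X)) (fun X => hm_cl (η X))
    (fun a ha => Co.ext' (nat a ha)), fun X => hq (ob X)⟩

/-- Quasi-isomorphisms which are natural, for functors. -/
theorem natW' {E : Type u₁} [Category.{v₁} E] {F G : E ⥤ Z0 (LMod n)}
    (η : ∀ X : E, LM.Hom (ol (F.obj X)) (ol (G.obj X)))
    (nat : ∀ {X Y : E} (a : X ⟶ Y) (x : (ol (F.obj X)).V),
      (η Y).f ((toH (F.map a)).f x) = (toH (G.map a)).f ((η X).f x))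
    (hq : ∀ X, GD.Qis (η X).toHom) : NatW (W n) F G :=
  ⟨{ app := fun X => ofH (η X)
     naturality := fun _ _ a => hom_ext (nat a) }, hq⟩

end LMod

end

end Vale.Agent.P286.H274
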