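import Vale.Agent.P286.H274.LMod
import Vale.Agent.P286.H353.OmC
import Vale.Agent.P286.H353.GtC
import Vale.Agent.P286.H697.DRF
import Vale.Agent.P286.H761.Xi

/-!
# The DG functors from complexes to modules over the exterior algebra
-/

namespace Vale.Agent.P286.H274

open CategoryTheory
open Vale.Agent.P286.St Vale.Agent.P286.Gen Vale.Agent.P286.H295 Vale.Agent.P286.H847
  Vale.Agent.P286.H64 Vale.Agent.P286.H353 Vale.Agent.P286.H697 Vale.Agent.P286.H761

noncomputable section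

/-! ### The de Rham functor -/

section DR

variable {T : TSite}

theorem cochL_gdl (hT : H389.Str T) {K L : GTD T} (m n : ℤ) (a : GTD.Coch K L m) :
    DRF.cochL hT K L n (gdl m n a) = odl m n (DRF.cochL hT K L m a) := by
  by_cases h : m + 1 = n
  · rw [gdl_eq h, odl_eq h]
    exact DRF.coch_dl hT a h
  · rw [gdl_ne h, odl_ne h, map_zero]

/-- The de Rham complexes, as a DG functor. -/
def DRFd (hT : H389.Str T) : DGF (gtc T) (omc T) where
  obj K := DRF hT K
  map {K L} n := DRF.cochL hT K L n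
  map_one K := DRF.coch_one hT K
  map_comp h a b := DRF.coch_cmp hT a b h
  map_d m n a := cochL_gdl hT m n a

theorem DRFd_obj (hT : H389.Str T) (K : GTD T) : (DRFd hT).obj K = DRF hT K := rfl

theorem DRFd_map (hT : H389.Str T) {K L : GTD T} (n : ℤ) (a : GTD.Coch K L n) :
    (DRFd hT).map n a = DRF.coch hT a := rfl

end DR

/-! ### The functor `Xi` -/

section Xi

variable {N : ℕ} {Γ : Gps N} [hs : Algebra.Smooth ℂ (Of Γ)] {W : SGD} {n : ℕ} (G : GauX Γ W n)

/-- `Xi` on cochains, as a linear map. -/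
def xiL (F F' : OmF (BGT Γ)) (p : ℤ) : OmF.Coch F F' p →ₗ[ℂ] LM.Coch (G.Xi F) (G.Xi F') p where
  toFun c := G.xi c
  map_add' c c' := Co.ext' (G.xi_add c c')
  map_smul' t c := Co.ext' (G.xi_smul t c)

theorem xiL_odl {F F' : OmF (BGT Γ)} (p q : ℤ) (a : OmF.Coch F F' p) :
    xiL G F F' q (odl p q a) = Co.dif p q (xiL G F F' p a) := by
  refine Co.eq_dif _ _ (fun h v => ?_) (fun h => ?_)
  · rw [odl_eq h]
    exact G.xi_dl a h v
  · rw [odl_ne h, map_zero]

/-- `Xi`, as a DG functor. -/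
def XId : DGF (omc (BGT Γ)) (LMod n) where
  obj F := G.Xi F
  map {F F'} p := xiL G F F' p
  map_one F := Co.ext' (G.xi_one F)
  map_comp h a b := Co.ext' (G.xi_cmp a b h)
  map_d p q a := xiL_odl G p q a

theorem XId_obj (F : OmF (BGT Γ)) : (XId G).obj F = G.Xi F := rfl

theorem XId_map {F F' : OmF (BGT Γ)} (p : ℤ) (c : OmF.Coch F F' p) :
    (XId G).map p c = G.xi c := rfl

/-- The strict morphism defined by a closed cochain of degree `0`. -/
def xiH {F F' : OmF (BGT Γ)} (c : OmF.Coch F F' 0) (hc : odl 0 1 c = 0) :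
    LM.Hom (G.Xi F) (G.Xi F') :=
  LMod.toH (zmk (C := LMod n) (X := LMod.lo (G.Xi F)) (Y := LMod.lo (G.Xi F')) (G.xi c)
    ((XId G).map_cl c hc))

theorem xiH_f {F F' : OmF (BGT Γ)} (c : OmF.Coch F F' 0) (hc : odl 0 1 c = 0)
    (v : (G.Xi F).V) : (xiH G c hc).f v = (G.xi c).f v := rfl

/-- A closed cochain of degree `0` which is a quasi-isomorphism at the point induces a
quasi-isomorphism. -/
theorem qis_xiH {F F' : OmF (BGT Γ)} (c : OmF.Coch F F' 0) (hc : odl 0 1 c = 0)
    (hF : GD.Qis (G.pi F)) (hF' : GD.Qis (G.pi F')) (h0 : GD.Qis (oghom c hc (BPt Γ))) :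
    GD.Qis (xiH G c hc).toHom :=
  G.qis_xi c hF hF' (xiH G c hc).toHom (fun _ => rfl) (oghom c hc (BPt Γ)) (fun _ => rfl) h0

/-- The same, on the category of closed morphisms of degree `0`. -/
theorem W_XId {F F' : Z0 (omc (BGT Γ))} (a : F ⟶ F') (hF : GD.Qis (G.pi (ob F)))
    (hF' : GD.Qis (G.pi (ob F'))) (h0 : GD.Qis (oghom (zf a) (zf_cl a) (BPt Γ))) :
    LMod.W n ((XId G).z0.map a) :=
  qis_xiH G (zf a) (zf_cl a) hF hF' h0

end Xi

end

end Vale.Agent.P286.H274
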