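import Vale.Agent.P286.H274.PresX
import Vale.Agent.P286.H353.Fin

/-!
# The field `presX` of the assembly
-/

namespace Vale.Agent.P286.H274

open CategoryTheory
open Vale.Agent.P286.St Vale.Agent.P286.Gen Vale.Agent.P286.H295 Vale.Agent.P286.H847
  Vale.Agent.P286.H64 Vale.Agent.P286.H353 Vale.Agent.P286.H697 Vale.Agent.P286.H761
  Vale.Agent.P286.H621

noncomputable section

variable {N : ℕ} {Γ : Gps N} [hs : Algebra.Smooth ℂ (Of Γ)] {W : SGD} {n : ℕ} (G : GauX Γ W n)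

/-- The field `presX` of `BParts`. -/
theorem presXi (hpi : ∀ K : CCx (BGT Γ), GD.Qis (G.pi (DRF (H652.strBG Γ) (ofCx (cx K)))))
    ⦃K L : Z0 (dgc (BGT Γ))⦄ (a : K ⟶ L) (ha : zqis (BGT Γ) a) :
    LMod.W n ((XiG G).z0.map a) := presXG G (H652.strBG Γ) hpi a ha

end

end Vale.Agent.P286.H274
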