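import Vale.Agent.P286.H274.XD
import Vale.Agent.P286.H353.GlueG
import Vale.Agent.P286.H621.OfD

/-!
# The functor from complexes to modules preserves quasi-isomorphisms
-/

namespace Vale.Agent.P286.H274

open CategoryTheory
open Vale.Agent.P286.St Vale.Agent.P286.Gen Vale.Agent.P286.H295 Vale.Agent.P286.H847
  Vale.Agent.P286.H64 Vale.Agent.P286.H353 Vale.Agent.P286.H697 Vale.Agent.P286.H761
  Vale.Agent.P286.H621

noncomputable section

section DR

variable {T : TSite}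

/-- The morphism of complexes of `D`-modules over a test object given by a closed cochain. -/
def morX {K L : GTD T} (z : GTD.Coch K L 0) (h : z.dl (zero_add 1) = 0) (X : T.C) :
    DGM.Mor (dgm K X) (dgm L X) where
  u := z.hom h X
  smul a x := z.fn X a x
  act v x := z.vf X v x

theorem qis_oghom_DRF (hT : H389.Str T) {K L : GTD T} (z : GTD.Coch K L 0)
    (h : z.dl (zero_add 1) = 0) (hc : odl 0 1 (DRF.coch hT z) = 0) (X : T.C)
    (P : (dgm K X).Dec) (Q : (dgm L X).Dec) (hu : GD.Qis (z.hom h X)) :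
    GD.Qis (oghom (DRF.coch hT z) hc X) := by
  have h1 := DGM.qis_DRg (bT T X) P Q (morX z h X) hu
  have e : ∀ x, (oghom (DRF.coch hT z) hc X).f x = (DGM.DRg.map (bT T X) (morX z h X)).f x := by
    intro x
    change szT 0 (cA z X) x = LinearMap.lTensor _ (morX z h X).lin x
    induction x using H710.DR.induction with
    | zero => rw [map_zero, map_zero]
    | tmul w x => rw [szT_tmul, Om.sgz_zero, LinearMap.lTensor_tmul]; rfl
    | add x y hx hy => rw [map_add, map_add, hx, hy]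
  intro m
  refine ⟨fun x hx hd hy => ?_, fun y hy hd => ?_⟩
  · obtain ⟨y, hy, hy'⟩ := hy
    exact (h1 m).1 x hx hd ⟨y, hy, hy'.trans (e x)⟩
  · obtain ⟨x, hx, hdx, y', hy', e'⟩ := (h1 m).2 y hy hd
    exact ⟨x, hx, hdx, y', hy', e'.trans (congrArg (y - ·) (e x).symm)⟩

end DR

section Pres

variable {N : ℕ} {Γ : Gps N} [hs : Algebra.Smooth ℂ (Of Γ)] {W : SGD} {n : ℕ} (G : GauX Γ W n)
  (hT : H389.Str (BGT Γ))

/-- The DG functor from families of graded differential spaces to modules. -/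
def XG : DGF (gtc (BGT Γ)) (LMod n) := (DRFd hT).comp (XId G)

theorem XG_obj (K : GTD (BGT Γ)) : (XG G hT).obj K = G.Xi (DRF hT K) := rfl

theorem XG_map {K L : GTD (BGT Γ)} (p : ℤ) (c : GTD.Coch K L p) :
    (XG G hT).map p c = G.xi (DRF.coch hT c) := rfl

/-- The field `presX` of the assembly. -/
theorem presXG (hpi : ∀ K : CCx (BGT Γ), GD.Qis (G.pi (DRF hT (ofCx (cx K)))))
    ⦃K L : Z0 (dgc (BGT Γ))⦄ (a : K ⟶ L) (ha : zqis (BGT Γ) a) :
    LMod.W n ((((inc (BGT Γ)).comp (ofD (BGT Γ))).comp (XG G hT)).z0.map a) := by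
  have h1 : xqis (BGT Γ) ((inc (BGT Γ)).z0.map a) := ha
  have h2 := gqis_ofD _ h1 (BPt Γ)
  rw [comp_map, comp_map]
  refine W_XId G ((DRFd hT).z0.map ((ofD (BGT Γ)).z0.map ((inc (BGT Γ)).z0.map a)))
    (hpi (zc K)) (hpi (zc L)) ?_
  exact qis_oghom_DRF hT (gz ((ofD (BGT Γ)).z0.map ((inc (BGT Γ)).z0.map a))) (gz_cl _) _ _
    (decX (cx (zc K)) (BPt Γ)) (decX (cx (zc L)) (BPt Γ)) h2

/-- The DG functor from complexes to modules. -/
def Xd : DGF (cxc (BGT Γ)) (LMod n) := ((ofD (BGT Γ)).comp (DRFd hT)).comp (XId G)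

theorem Xd_obj (K : CochainComplex (TD (BGT Γ)) ℤ) :
    (Xd G hT).obj K = G.Xi (DRF hT (ofCx K)) := rfl

/-- The functor preserves quasi-isomorphisms. -/
theorem presX (hpi : ∀ K : CCx (BGT Γ), GD.Qis (G.pi (DRF hT (ofCx (cx K)))))
    ⦃K L : Z0 (dgc (BGT Γ))⦄ (a : K ⟶ L) (ha : zqis (BGT Γ) a) :
    LMod.W n (((inc (BGT Γ)).comp (Xd G hT)).z0.map a) := by
  have h1 : xqis (BGT Γ) ((inc (BGT Γ)).z0.map a) := ha
  have h2 := gqis_ofD _ h1 (BPt Γ)
  refine W_XId G ((DRFd hT).z0.map ((ofD (BGT Γ)).z0.map ((inc (BGT Γ)).z0.map a)))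
    (hpi (zc K)) (hpi (zc L)) ?_
  exact qis_oghom_DRF hT (gz ((ofD (BGT Γ)).z0.map ((inc (BGT Γ)).z0.map a))) (gz_cl _) _ _
    (decX (cx (zc K)) (BPt Γ)) (decX (cx (zc L)) (BPt Γ)) h2

end Pres

end

end Vale.Agent.P286.H274
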